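import Vale.Agent.Lib.P170T.Main

namespace Vale.Agent.Results.P170.AA_threshold

open Vale.Agent.Lib.P170 Filter Topology

/-- The satisfiability threshold conjecture (Chvatal and Reed): for every fixed `k ≥ 3`, random
`k`-SAT has a limiting threshold `α ∈ (0, ∞)`: for `0 ≤ c < α` the probability that
`⌊c n⌋` independent uniform proper `k`-clauses on `n` variables are satisfiable tends to `1`,
and for `c > α` it tends to `0`. -/
theorem result (k : ℕ) (hk : 3 ≤ k) : ∃ α : ℝ, 0 < α ∧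
    (∀ c : ℝ, 0 ≤ c → c < α → Tendsto (fun n : ℕ => satProb k n ⌊c * (n : ℝ)⌋₊) atTop (𝓝 1)) ∧
    (∀ c : ℝ, α < c → Tendsto (fun n : ℕ => satProb k n ⌊c * (n : ℝ)⌋₊) atTop (𝓝 0)) :=
  Vale.Agent.Lib.P170T.sat_threshold k hk

end Vale.Agent.Results.P170.AA_threshold
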